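import Vale.Agent.P028.MathlibUsed
import Vale.Agent.P028.H530.Sep
import Vale.Agent.P028.H564.Cut
import Vale.Agent.P028.H383.TS
attribute [-instance] ProperSMul.toContinuousSMul IsTopologicalTorsor.toContinuousSMul IdemSemiring.toCanonicallyOrderedAdd IdemSemiring.toMulLeftMono IdemSemiring.toMulRightMono AddQuantale.instAddLeftMono AddQuantale.instAddRightMono Quantale.instMulLeftMono Quantale.instMulRightMono FiniteDimensional.rclike_to_real IsScalarTower.complexToReal FiniteDimensional.complexToReal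

/-!
# Class TS: the definitions of the assembly
-/

namespace Vale.P028.SK

open Finset CF RN

variable (g : Cfg)

/-- the position of the stage `j` -/
noncomputable def ps (j : ℕ) : ℕ := N g - z g j

/-- the deviations of the word of `q` -/
def dvn (q : ℕ) : ℕ → Prop := fun k => uw g q k = true

/-- What class TS needs from the dilution: `mu q k` = the scaled masses of the places of `q`,
`Cp q` = the positions of the newness times of `q`, `Pay q s` = the phase of `q` which starts at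
the position `s` pays. -/
structure DSys (S : Finset ℕ) (δ : ℕ → ℕ → ℝ) (c κ A : ℝ) (mu : ℕ → ℕ → ℝ)
    (Cp : ℕ → Finset ℕ) (Pay : ℕ → ℕ → Prop) : Prop where
  c_pos : 0 < c
  c_small : c * Real.exp 24 ≤ 1
  κ_pos : 0 < κ
  κ_le : κ ≤ 1
  A_nonneg : 0 ≤ A
  mu_nonneg : ∀ q k, 0 ≤ mu q k
  mu_le : ∀ q k, mu q k ≤ 1 / 4
  mu_hw : ∀ q ∈ S, ∀ k, c * mu q k ≤ hw g (Qc g q) k
  mu_dev : ∀ q ∈ S, ∀ k, uw g q k = true → hw g (Qc g q) k ≤ c * mu q k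
  mu_cell : ∀ q ∈ S, ∀ r ∈ S, ∀ j, r ∈ NT.cell g.V (f g) (thr g) (N g) (z g j) q →
    ∀ k < N g - z g j, mu r k = mu q k
  cp : ∀ q ∈ S, ∀ a, a ∈ Cp q ↔ ∃ j, 1 ≤ j ∧ j ≤ nst g ∧ Nw g j q ∧ ps g j = a
  pos : ∀ q ∈ S, RK.Pos (dvn g q) (mu q) (N g) (Cp q) (Pay q)
  wg : ∀ q ∈ S, ∀ s, WG g δ q s ≤ A * RK.Vt κ (Pay q) (Cp q) s

/-- the walk of the labels of `q` outside the stage `j` -/
noncomputable def Wn (mu : ℕ → ℕ → ℝ) (j q : ℕ) : ℝ := RK.W (dvn g q) (mu q) (ps g j)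

open Classical in
/-- the first stage at which the radius of `q` is larger than `1` or `q` is rare (`nst + 1` if
there is none) -/
noncomputable def cst (Rr : ℕ → ℕ → Prop) (q : ℕ) : ℕ :=
  if h : ∃ t, t ≤ nst g ∧ (1 < PA.rho (dat g) t q ∨ Rr t q) then Nat.find h else nst g + 1

open Classical in
/-- the position of the cut of `q` -/
noncomputable def ewp (Rr : ℕ → ℕ → Prop) (q : ℕ) : ℕ :=
  if cst g Rr q ≤ nst g then ps g (cst g Rr q) else N g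

/-- the levels of `q` -/
def El (S : Finset ℕ) (j q : ℕ) : Prop := ∃ r ∈ S, ∃ n ∈ Sh g q r, TSj g j q r n

/-- the exceptional levels of `q`: `q` is aligned with a partner at a stage `i > j` of the phase of
the level, before the cut, and the reduced cofactors are at most `z i` -/
def Exc (S : Finset ℕ) (Rr : ℕ → ℕ → Prop) (j q : ℕ) : Prop :=
  ∃ r ∈ S, ∃ n ∈ Sh g q r, TSj g j q r n ∧ ∃ i, j < i ∧ i ≤ nst g ∧ Al g i q r n ∧
    NAl g (i - 1) q r n ∧ (∀ t, j < t → t ≤ i → ¬ Nw g t q) ∧ PA.rho (dat g) i q ≤ 1 ∧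
    ¬ Rr i q ∧ rcof (z g j) (N g) (kc g q) q r ≤ z g i ∧ rcof (z g j) (N g) (kc g q) r q ≤ z g i

open Classical in
/-- the gain of `q` at the level `j` -/
noncomputable def Gm (S : Finset ℕ) (Rr : ℕ → ℕ → Prop) (c κ : ℝ) (mu : ℕ → ℕ → ℝ)
    (Cp : ℕ → Finset ℕ) (Pay : ℕ → ℕ → Prop) (j q : ℕ) : ℝ :=
  RK.UU (dvn g q) (mu q) c (ps g j) (min (RK.nx (Cp q) (N g) (ps g j)) (ewp g Rr q)) *
      RK.Vt κ (Pay q) (Cp q) (RK.nx (Cp q) (N g) (ps g j)) +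
    ∑ i ∈ Icc (j + 1) (nst g), (z g i : ℝ) ^ (-(1 / 4) : ℝ) *
      (RK.UU (dvn g q) (mu q) c (ps g j)
        (min (RK.nx (Cp q) (N g) (ps g j)) (min (ps g i) (ewp g Rr q))) *
      RK.Vt κ (Pay q) (Cp q) (RK.nx (Cp q) (N g) (ps g j))) +
    (if Exc g S Rr j q then RK.Vt κ (Pay q) (Cp q) (RK.nx (Cp q) (N g) (ps g j)) else 0)

/-! ### The statements of the parts -/

/-- T1 (676): the kernel of a pair is at most the gain of `q` -/
def TSPair (g : Cfg) (S : Finset ℕ) (δ : ℕ → ℕ → ℝ) (Rr : ℕ → ℕ → Prop) (c κ B : ℝ)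
    (mu : ℕ → ℕ → ℝ) (Cp : ℕ → Finset ℕ) (Pay : ℕ → ℕ → Prop) : Prop :=
  ∀ q ∈ S, ∀ r ∈ S, ∀ j, 1 ≤ j → j ≤ nst g → ∀ n ∈ Sh g q r, TSj g j q r n →
    (((rcof (z g j) (N g) (kc g q) q r : ℕ) : ℝ) *
      ((rcof (z g j) (N g) (kc g q) r q : ℕ) : ℝ)) ^ (-(9 / 20) : ℝ) * TP g δ (z g j) q r n ≤
      B * Gm g S Rr c κ mu Cp Pay j q

open Classical in
/-- T2 (564): the sum over the levels of one modulus -/
def TSSum (g : Cfg) (S : Finset ℕ) (Rr : ℕ → ℕ → Prop) (c κ B : ℝ)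
    (mu : ℕ → ℕ → ℝ) (Cp : ℕ → Finset ℕ) (Pay : ℕ → ℕ → Prop) : Prop :=
  ∀ q ∈ S, ∑ j ∈ (Icc 1 (nst g)).filter (fun j => El g S j q ∧ ¬ Rr j q),
    Real.exp (-Wn g mu j q) * Gm g S Rr c κ mu Cp Pay j q ≤ B

/-- T3 (367): two exceptional levels of one phase are adjacent -/
def TSExc (g : Cfg) (S : Finset ℕ) (Rr : ℕ → ℕ → Prop) : Prop :=
  ∀ q ∈ S, ∀ j₁ j₂, 1 ≤ j₁ → j₁ + 2 ≤ j₂ → j₂ ≤ nst g → Exc g S Rr j₁ q → Exc g S Rr j₂ q →
    ∃ t, j₁ < t ∧ t ≤ j₂ ∧ Nw g t q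

open Classical in
/-- T4: the law of the partners -/
def TSLaw (g : Cfg) (S : Finset ℕ) (mu : ℕ → ℕ → ℝ) (B : ℝ) : Prop :=
  ∀ q ∈ S, ∀ j, 1 ≤ j → j ≤ nst g → ∑ r ∈ S.filter (fun r => ∃ n ∈ Sh g q r, TSj g j q r n),
    Wt g j r * Real.exp (Wn g mu j r) ≤ B

open Classical in
/-- T5: the rare partners -/
def TSRare (g : Cfg) (S : Finset ℕ) (Rr : ℕ → ℕ → Prop) (ε : ℕ → ℝ) : Prop :=
  ∀ q ∈ S, ∀ j, 1 ≤ j → j ≤ nst g →
    ∑ r ∈ S.filter (fun r => (∃ n ∈ Sh g q r, TSj g j q r n) ∧ Rr j r), Wt g j r ≤ ε j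

end Vale.P028.SK
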