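import Vale.Agent.P028.MathlibUsed

/-!
# Rows and columns: Hoelder's inequality with unequal exponents
-/

namespace Vale.P028.Db

open Finset

/-- Hoelder's inequality for `x ^ θ * y ^ (1 - θ)` -/
theorem holder_sum {ι : Type*} (s : Finset ι) {x y : ι → ℝ} {θ : ℝ} (h0 : 0 < θ) (h1 : θ < 1)
    (hx : ∀ i ∈ s, 0 ≤ x i) (hy : ∀ i ∈ s, 0 ≤ y i) :
    ∑ i ∈ s, x i ^ θ * y i ^ (1 - θ) ≤ (∑ i ∈ s, x i) ^ θ * (∑ i ∈ s, y i) ^ (1 - θ) := by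
  have hpq : (1 / θ).HolderConjugate (1 / (1 - θ)) := by
    rw [Real.holderConjugate_iff]
    refine ⟨by rw [lt_div_iff₀ h0]; linarith, ?_⟩
    field_simp
    ring
  have h := Real.inner_le_Lp_mul_Lq_of_nonneg s hpq
    (f := fun i => x i ^ θ) (g := fun i => y i ^ (1 - θ))
    (fun i hi => Real.rpow_nonneg (hx i hi) _) (fun i hi => Real.rpow_nonneg (hy i hi) _)
  have e1 : ∑ i ∈ s, (x i ^ θ) ^ (1 / θ) = ∑ i ∈ s, x i := by
    refine sum_congr rfl fun i hi => ?_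
    rw [← Real.rpow_mul (hx i hi), mul_one_div_cancel h0.ne', Real.rpow_one]
  have e2 : ∑ i ∈ s, (y i ^ (1 - θ)) ^ (1 / (1 - θ)) = ∑ i ∈ s, y i := by
    refine sum_congr rfl fun i hi => ?_
    rw [← Real.rpow_mul (hy i hi), mul_one_div_cancel (by linarith), Real.rpow_one]
  rw [e1, e2, one_div_one_div, one_div_one_div] at h
  exact h

/-- **rows and columns**: `∑ (F a * W₁ a b) ^ θ * (G b * W₂ a b) ^ (1 - θ)` -/
theorem holder_rows {α β : Type*} (S : Finset α) (T : Finset β) {W₁ W₂ : α → β → ℝ}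
    {F : α → ℝ} {G : β → ℝ} {R θ : ℝ} (h0 : 0 < θ) (h1 : θ < 1) (hR : 0 ≤ R)
    (hW₁ : ∀ a ∈ S, ∀ b ∈ T, 0 ≤ W₁ a b) (hW₂ : ∀ a ∈ S, ∀ b ∈ T, 0 ≤ W₂ a b)
    (hF : ∀ a ∈ S, 0 ≤ F a) (hG : ∀ b ∈ T, 0 ≤ G b)
    (hr : ∀ a ∈ S, ∑ b ∈ T, W₁ a b ≤ R) (hc : ∀ b ∈ T, ∑ a ∈ S, W₂ a b ≤ R) :
    ∑ a ∈ S, ∑ b ∈ T, (F a * W₁ a b) ^ θ * (G b * W₂ a b) ^ (1 - θ) ≤
      R * ((∑ a ∈ S, F a) ^ θ * (∑ b ∈ T, G b) ^ (1 - θ)) := by
  have hF0 : 0 ≤ ∑ a ∈ S, F a := sum_nonneg hF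
  have hG0 : 0 ≤ ∑ b ∈ T, G b := sum_nonneg hG
  rw [← sum_product']
  refine (holder_sum (S ×ˢ T) h0 h1 (fun i hi => ?_) fun i hi => ?_).trans ?_
  · obtain ⟨ha, hb⟩ := mem_product.1 hi
    exact mul_nonneg (hF _ ha) (hW₁ _ ha _ hb)
  · obtain ⟨ha, hb⟩ := mem_product.1 hi
    exact mul_nonneg (hG _ hb) (hW₂ _ ha _ hb)
  have e1 : ∑ i ∈ S ×ˢ T, F i.1 * W₁ i.1 i.2 ≤ R * ∑ a ∈ S, F a := by
    rw [sum_product' (f := fun a b => F a * W₁ a b), mul_sum]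
    refine sum_le_sum fun a ha => ?_
    rw [← mul_sum, mul_comm R]
    exact mul_le_mul_of_nonneg_left (hr a ha) (hF a ha)
  have e2 : ∑ i ∈ S ×ˢ T, G i.2 * W₂ i.1 i.2 ≤ R * ∑ b ∈ T, G b := by
    rw [sum_product' (f := fun a b => G b * W₂ a b), sum_comm, mul_sum]
    refine sum_le_sum fun b hb => ?_
    rw [← mul_sum, mul_comm R]
    exact mul_le_mul_of_nonneg_left (hc b hb) (hG b hb)
  have n1 : 0 ≤ ∑ i ∈ S ×ˢ T, F i.1 * W₁ i.1 i.2 := sum_nonneg fun i hi => by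
    obtain ⟨ha, hb⟩ := mem_product.1 hi
    exact mul_nonneg (hF _ ha) (hW₁ _ ha _ hb)
  have n2 : 0 ≤ ∑ i ∈ S ×ˢ T, G i.2 * W₂ i.1 i.2 := sum_nonneg fun i hi => by
    obtain ⟨ha, hb⟩ := mem_product.1 hi
    exact mul_nonneg (hG _ hb) (hW₂ _ ha _ hb)
  calc (∑ i ∈ S ×ˢ T, F i.1 * W₁ i.1 i.2) ^ θ * (∑ i ∈ S ×ˢ T, G i.2 * W₂ i.1 i.2) ^ (1 - θ)
      ≤ (R * ∑ a ∈ S, F a) ^ θ * (R * ∑ b ∈ T, G b) ^ (1 - θ) := by
        refine mul_le_mul (Real.rpow_le_rpow n1 e1 h0.le) (Real.rpow_le_rpow n2 e2 (by linarith))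
          (Real.rpow_nonneg n2 _) (Real.rpow_nonneg (mul_nonneg hR hF0) _)
    _ = (R ^ θ * R ^ (1 - θ)) * ((∑ a ∈ S, F a) ^ θ * (∑ b ∈ T, G b) ^ (1 - θ)) := by
        rw [Real.mul_rpow hR hF0, Real.mul_rpow hR hG0]
        ring
    _ = _ := by
        rcases hR.eq_or_lt with h | h
        · rw [← h, Real.zero_rpow h0.ne', zero_mul, zero_mul]
        · rw [← Real.rpow_add h]
          norm_num

/-- the tilt of the sizes: `(1 + |y|) ^ (-2) ≤ (1 + σ |l|) ^ (-2) * exp (2 σ |l - y|)` -/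
theorem size_tilt {l y σ : ℝ} (h0 : 0 ≤ σ) (h1 : σ ≤ 1) :
    (1 + |y|) ^ (-(2 : ℝ)) ≤ (1 + σ * |l|) ^ (-(2 : ℝ)) * Real.exp (2 * (σ * |l - y|)) := by
  have a0 := abs_nonneg y
  have a1 := abs_nonneg l
  have a2 := abs_nonneg (l - y)
  have h2 : 1 + σ * |l| ≤ (1 + |y|) * Real.exp (σ * |l - y|) := by
    have h3 : |l| ≤ |y| + |l - y| := by
      have := abs_add_le y (l - y)
      rwa [add_sub_cancel] at this
    have h4 : 1 + σ * |l - y| ≤ Real.exp (σ * |l - y|) := by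
      rw [add_comm]; exact Real.add_one_le_exp _
    have h5 : 0 ≤ σ * |l - y| := mul_nonneg h0 a2
    calc 1 + σ * |l| ≤ 1 + σ * (|y| + |l - y|) := by
          have := mul_le_mul_of_nonneg_left h3 h0
          linarith
      _ ≤ (1 + |y|) * (1 + σ * |l - y|) := by nlinarith
      _ ≤ _ := mul_le_mul_of_nonneg_left h4 (by linarith)
  have p1 : (0 : ℝ) < 1 + |y| := by linarith
  have p2 : (0 : ℝ) < 1 + σ * |l| := by
    have := mul_nonneg h0 a1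
    linarith
  rw [Real.rpow_neg p1.le, Real.rpow_neg p2.le, Real.rpow_two, Real.rpow_two,
    inv_mul_eq_div, inv_le_comm₀ (by positivity) (by positivity), inv_div, div_le_iff₀ (by positivity)]
  calc (1 + σ * |l|) ^ 2 ≤ ((1 + |y|) * Real.exp (σ * |l - y|)) ^ 2 :=
        pow_le_pow_left₀ p2.le h2 2
    _ = (1 + |y|) ^ 2 * Real.exp (2 * (σ * |l - y|)) := by
        rw [mul_pow, ← Real.exp_nat_mul]
        push_cast
        ring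

end Vale.P028.Db
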