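import Vale.Agent.P028.MathlibUsed
import Vale.Agent.P028.R103.X3a
import Vale.Agent.P028.R764.LkOut
import Vale.Agent.P028.H74.Trunc
import Vale.Agent.P028.H279.X1T
import Vale.Agent.P028.H383.RemX
attribute [-instance] ProperSMul.toContinuousSMul IsTopologicalTorsor.toContinuousSMul IdemSemiring.toCanonicallyOrderedAdd IdemSemiring.toMulLeftMono IdemSemiring.toMulRightMono AddQuantale.instAddLeftMono AddQuantale.instAddRightMono Quantale.instMulLeftMono Quantale.instMulRightMono FiniteDimensional.rclike_to_real IsScalarTower.complexToReal FiniteDimensional.complexToReal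

/-!
# The row of a label in the leak classes, below a number `x` above which the partners agree
-/

namespace Vale.P028.SK.X3

open Finset CF RN H669

variable {g : Cfg}

/-- the primes of the rough part of the reduced cofactor which are not omitted -/
noncomputable def rsS (g : Cfg) (i s B q r : ℕ) : Finset ℕ :=
  (rgh (z g s) (rcof (z g i) (N g) (kc g q) q r)).primeFactors \ omS g i s B q r

/-- the primes of `T` which are at most `x` -/
def lo (x : ℕ) (T : Finset ℕ) : Finset ℕ := T.filter (fun p => p ≤ x)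

theorem pt_rpow (T : Finset ℕ) (m : ℕ) (e : ℝ) :
    ((pt T m : ℕ) : ℝ) ^ e = ∏ p ∈ T, ((p : ℝ) ^ e) ^ m.factorization p := by
  unfold pt
  push_cast
  rw [← Real.finsetProd_rpow _ _ (fun p _ => by positivity)]
  refine prod_congr rfl fun p _ => ?_
  rw [← Real.rpow_natCast, ← Real.rpow_natCast, ← Real.rpow_mul (by positivity),
    ← Real.rpow_mul (by positivity), mul_comm]

/-- the data of a row: `q₀` is fixed, the partners `r ∈ S` -/
structure RowH (g : Cfg) (δ : ℕ → ℕ → ℝ) (i s x B q₀ : ℕ) (F G : ℚ) (S : Finset ℕ) (qw : ℕ → ℕ)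
    (nw : ℕ → ℤ) : Prop where
  q0 : q₀ ∈ g.V
  w0 : WW w3 g q₀ ≤ 1 / 4
  sx : z g s ≤ x
  xi : x ≤ z g i
  mr : ∀ r ∈ S, WW w3 g r ≤ 1 / 4
  pd : ∀ r ∈ S, PD g i (z g s) (qw r) r (nw r) F G
  kd : ∀ r ∈ S, Kd g δ (qw r) r (nw r) ≠ 0
  l1 : ∀ r ∈ S, (Real.log (CF.KK g i (qw r) F)) ^ (3 / 2 : ℝ) ≤ z g s
  l2 : ∀ r ∈ S, (Real.log (CF.KK g i r G)) ^ (3 / 2 : ℝ) ≤ z g s
  bb : ∀ r ∈ S, BB g i (qw r) r F G = B
  rg : ∀ r ∈ S, Rg g s (qw r) = Rg g s q₀
  inj : ∀ r ∈ S, ∀ r' ∈ S, Rg g s r = Rg g s r' → r = r'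
  lab : ∀ r ∈ S, ∀ r' ∈ S, rgh x r = rgh x r'

section

variable {δ : ℕ → ℕ → ℝ} {i s x B q₀ : ℕ} {F G : ℚ} {S : Finset ℕ} {qw : ℕ → ℕ} {nw : ℕ → ℤ}

/-- the local facts of one pair of the row -/
theorem RowH.loc (hJ : JsOK g.K g.Js) (hX : g.Js ≤ g.X) (hV : g.V ⊆ Icc 1 (N g))
    (h : RowH g δ i s x B q₀ F G S qw nw) {r : ℕ} (hr : r ∈ S) {p : ℕ}
    (hp : p.Prime) (hsp : z g s < p) (hpx : p ≤ x) :
    (rcof (z g i) (N g) (kc g (qw r)) (qw r) r).factorization p =
        q₀.factorization p - r.factorization p ∧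
      (rcof (z g i) (N g) (kc g (qw r)) r (qw r)).factorization p =
        r.factorization p - q₀.factorization p ∧
      (p ∈ lo x (omS g i s B (qw r) r) ↔
        r.factorization p < q₀.factorization p ∧ ¬ p ∣ B ∧ q₀.factorization p = kc g q₀ p) ∧
      (p ∈ lo x (omS g i s B r (qw r)) ↔
        q₀.factorization p < r.factorization p ∧ ¬ p ∣ B ∧ r.factorization p = kc g r p) := by
  have hz : zs g ≤ z g i := zs_le_z hJ hX i
  have hd := h.pd r hr
  have hc : Clean g (z g i) (qw r) r := hd.ta.2.2.1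
  have hc' := Clean.swap hd.hr hc
  have hpi : p ≤ z g i := hpx.trans h.xi
  obtain ⟨f1, f2⟩ := rcof_fac hV hz hd.hq hd.hr hc hp
  rw [if_pos hpi] at f1 f2
  have e0 : (qw r).factorization p = q₀.factorization p := fac_of_Rg hV h.q0 hd.hq (h.rg r hr) hsp
  have ek : kc g (qw r) p = kc g q₀ p := kc_congr (cell_of_Rg hV h.q0 hd.hq (h.rg r hr)) hsp
  have e2 : rcof (z g i) (N g) (kc g r) r (qw r) = rcof (z g i) (N g) (kc g (qw r)) r (qw r) :=
    rcof_swap hV hz hd.hq hd.hr hc r (qw r)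
  rw [e0] at f1 f2
  refine ⟨f1, f2, ?_, ?_⟩
  · unfold lo omS
    rw [mem_filter, mem_filter, Nat.mem_primeFactors, e0, ek]
    constructor
    · rintro ⟨⟨⟨-, h2, -⟩, h3⟩, -⟩
      refine ⟨?_, h3⟩
      have h4 := hp.factorization_pos_of_dvd (rgh_pos _ _).ne' h2
      rw [rgh_fac, if_pos hsp, f1] at h4
      omega
    · rintro ⟨h1, h3⟩
      refine ⟨⟨⟨hp, Nat.dvd_of_factorization_pos ?_, (rgh_pos _ _).ne'⟩, h3⟩, hpx⟩
      rw [rgh_fac, if_pos hsp, f1]
      omega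
  · unfold lo omS
    rw [mem_filter, mem_filter, Nat.mem_primeFactors, e2]
    constructor
    · rintro ⟨⟨⟨-, h2, -⟩, h3⟩, -⟩
      refine ⟨?_, h3⟩
      have h4 := hp.factorization_pos_of_dvd (rgh_pos _ _).ne' h2
      rw [rgh_fac, if_pos hsp, f2] at h4
      omega
    · rintro ⟨h1, h3⟩
      refine ⟨⟨⟨hp, Nat.dvd_of_factorization_pos ?_, (rgh_pos _ _).ne'⟩, h3⟩, hpx⟩
      rw [rgh_fac, if_pos hsp, f2]
      omega

/-- the base exponents of the row -/
noncomputable def bR (x q₀ r₀ p : ℕ) : ℕ :=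
  if p ≤ x then q₀.factorization p else r₀.factorization p

theorem lo_omS (hJ : JsOK g.K g.Js) (hX : g.Js ≤ g.X) (hV : g.V ⊆ Icc 1 (N g)) {q r : ℕ}
    (hq : q ∈ g.V) (hr : r ∈ g.V) (hc : Clean g (z g i) q r) {p : ℕ}
    (h : p ∈ lo x (omS g i s B q r)) : p.Prime ∧ z g s < p ∧ p ≤ x ∧ p ≤ N g := by
  obtain ⟨h1, h2⟩ := mem_filter.1 h
  obtain ⟨a1, a2, a3, -⟩ := mem_omS hV (zs_le_z hJ hX i) hq hr hc h1
  exact ⟨a1, a2, h2, a3⟩

/-- the elements of the row satisfy the hypotheses of the tree -/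
theorem RowH.xr (hJ : JsOK g.K g.Js) (hX : g.Js ≤ g.X) (hV : g.V ⊆ Icc 1 (N g))
    (hN : NSpl g δ) (h : RowH g δ i s x B q₀ F G S qw nw) {r₀ : ℕ} (hr₀ : r₀ ∈ S) {r : ℕ}
    (hr : r ∈ S) :
    XR g (bR x q₀ r₀) ((NT.PzN (zs g) (N g)).filter
        (fun p => q₀.factorization p ≠ NT.kk g.V (f g) (thr g) (N g) q₀ p))
      ((Icc 1 (N g)).filter (fun p => p.Prime ∧ z g s < p ∧ p ≤ x)) B (z g s)
      (fun r => lo x (omS g i s B (qw r) r)) (fun r => lo x (omS g i s B r (qw r))) r := by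
  have hz : zs g ≤ z g i := zs_le_z hJ hX i
  have hd := h.pd r hr
  have hc : Clean g (z g i) (qw r) r := hd.ta.2.2.1
  have hc' := Clean.swap hd.hr hc
  obtain ⟨-, -, -, ha, hb⟩ := clean_cofac hV hz hd.hq hd.hr hc
  refine ⟨hd.hr, h.mr r hr, fun p hp => ?_, fun p hp => ?_, fun p hp => ?_, ?_, ?_⟩
  · obtain ⟨a1, a2, a3, a4⟩ := lo_omS hJ hX hV hd.hq hd.hr hc hp
    have := ((h.loc hJ hX hV hr a1 a2 a3).2.2.1.1 hp).1
    refine ⟨?_, mem_filter.2 ⟨mem_Icc.2 ⟨a1.one_le, a4⟩, a1, a2, a3⟩⟩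
    unfold bR
    rwa [if_pos a3]
  · obtain ⟨a1, a2, a3, a4⟩ := lo_omS hJ hX hV hd.hr hd.hq hc' hp
    exact ⟨a1, a2, a4⟩
  · obtain ⟨a1, a2, a3, a4⟩ := lo_omS hJ hX hV hd.hr hd.hq hc' hp
    obtain ⟨b1, b2, b3⟩ := (h.loc hJ hX hV hr a1 a2 a3).2.2.2.1 hp
    refine ⟨?_, ?_⟩
    · unfold bR
      rwa [if_pos a3]
    · have hpr : p ∣ rcof (z g i) (N g) (kc g r) r (qw r) := by
        rw [rcof_swap hV hz hd.hq hd.hr hc r (qw r)]
        refine Nat.dvd_of_factorization_pos ?_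
        rw [(h.loc hJ hX hV hr a1 a2 a3).2.1]
        omega
      have h5 := hd.swap.dev_or_omt (δ := δ) hJ hX hV (by rw [Kd_swap]; exact h.kd r hr)
        (h.l2 r hr) a1 a2 (by rw [BB_swap, h.bb r hr]; exact b2) hpr
      rcases h5.2 with ⟨h6, -⟩ | h6
      · exact hN r hd.hr p a4 a1.pos (mem_UO.1 h6).2.2.2.2
      · omega
  · intro p hp hsp hpN hpB hpU hlt
    unfold bR at hlt ⊢
    by_cases hpx : p ≤ x
    · rw [if_pos hpx] at hlt ⊢
      obtain ⟨c1, c2, c3, c4⟩ := h.loc hJ hX hV hr hp hsp hpx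
      have hpr : p ∣ rcof (z g i) (N g) (kc g (qw r)) (qw r) r := by
        refine Nat.dvd_of_factorization_pos ?_
        rw [c1]
        omega
      have h5 := hd.dev_or_omt (δ := δ) hJ hX hV (h.kd r hr) (h.l1 r hr) hp hsp
        (by rw [h.bb r hr]; exact hpB) hpr
      have e0 : (qw r).factorization p = q₀.factorization p :=
        fac_of_Rg hV h.q0 hd.hq (h.rg r hr) hsp
      have ek : kc g (qw r) p = kc g q₀ p :=
        kc_congr (cell_of_Rg hV h.q0 hd.hq (h.rg r hr)) hsp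
      left
      refine mem_filter.2 ⟨NT.mem_PzN.2 ⟨hp, (zs_le_z hJ hX s).trans_lt hsp, hpN⟩, ?_⟩
      have hkk : kc g q₀ p = NT.kk g.V (f g) (thr g) (N g) q₀ p := by
        unfold kc NT.kN
        rw [if_pos hpN]
      rw [← hkk]
      rcases h5.2 with ⟨-, h6⟩ | h6
      · exact absurd (c3.2 ⟨hlt, hpB, by rw [← e0, ← ek]; exact h6⟩) hpU
      · omega
    · rw [if_neg hpx] at hlt
      have h6 : r.factorization p = r₀.factorization p := by
        have h7 := congrArg (fun m => m.factorization p) (h.lab r hr r₀ hr₀)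
        simp only [rgh_fac] at h7
        rwa [if_pos (not_le.1 hpx), if_pos (not_le.1 hpx)] at h7
      omega
  · intro p hp hsp hpN hpB hpU hlt
    unfold bR at hlt
    by_cases hpx : p ≤ x
    · rw [if_pos hpx] at hlt
      obtain ⟨c1, c2, c3, c4⟩ := h.loc hJ hX hV hr hp hsp hpx
      have hpr : p ∣ rcof (z g i) (N g) (kc g r) r (qw r) := by
        rw [rcof_swap hV hz hd.hq hd.hr hc r (qw r)]
        refine Nat.dvd_of_factorization_pos ?_
        rw [c2]
        omega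
      have h5 := hd.swap.dev_or_omt (δ := δ) hJ hX hV (by rw [Kd_swap]; exact h.kd r hr)
        (h.l2 r hr) hp hsp (by rw [BB_swap, h.bb r hr]; exact hpB) hpr
      rcases h5.2 with ⟨-, h6⟩ | h6
      · exact absurd (c4.2 ⟨hlt, hpB, h6⟩) hpU
      · exact h6
    · rw [if_neg hpx] at hlt
      have h6 : r.factorization p = r₀.factorization p := by
        have h7 := congrArg (fun m => m.factorization p) (h.lab r hr r₀ hr₀)
        simp only [rgh_fac] at h7
        rwa [if_pos (not_le.1 hpx), if_pos (not_le.1 hpx)] at h7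
      omega

/-- the places of the row outside `(z s, x]` -/
theorem not_lo {x : ℕ} {T : Finset ℕ} {a p : ℕ} (hT : T ⊆ (rgh (z g s) a).primeFactors)
    (h : p ∈ lo x T) : p.Prime ∧ z g s < p ∧ p ≤ x ∧ a.factorization p ≠ 0 := by
  obtain ⟨h1, h2⟩ := mem_filter.1 h
  have h3 := hT h1
  have h4 : (rgh (z g s) a).factorization p ≠ 0 := by
    rw [← Finsupp.mem_support_iff, Nat.support_factorization]
    exact h3
  rw [rgh_fac] at h4
  split_ifs at h4 with h5
  · exact ⟨Nat.prime_of_mem_primeFactors h3, h5, h2, h4⟩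
  · exact absurd rfl h4

theorem prod_pl {P T : Finset ℕ} (h : T ⊆ P) (φ : ℕ → ℝ) :
    ∏ p ∈ T, φ p = ∏ p ∈ P, if p ∈ T then φ p else 1 := by
  rw [prod_ite_mem, inter_eq_right.2 h]

/-- the weight of an element of the row is the product of the weights of the labels -/
theorem RowH.prod_eq (hJ : JsOK g.K g.Js) (hX : g.Js ≤ g.X) (hV : g.V ⊆ Icc 1 (N g))
    (h : RowH g δ i s x B q₀ F G S qw nw) {r₀ : ℕ} (hr₀ : r₀ ∈ S) {r : ℕ}
    (hr : r ∈ S) (hh : ℕ → ℝ) (τ : ℝ) :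
    (∏ p ∈ lo x (omS g i s B (qw r) r), hh p) *
      ((pt (lo x (omS g i s B (qw r) r)) (rcof (z g i) (N g) (kc g (qw r)) (qw r) r) : ℕ) : ℝ) ^
        (-(1 - τ)) *
      (((pt (lo x (rsS g i s B (qw r) r)) (rcof (z g i) (N g) (kc g (qw r)) (qw r) r) : ℕ) : ℝ) *
        (pt (lo x (rsS g i s B r (qw r))) (rcof (z g i) (N g) (kc g r) r (qw r)) : ℕ)) ^
          (-(5 / 12) : ℝ) =
    ∏ p ∈ prN (N g), wX (bR x q₀ r₀) hh τ (z g s) (fun r => lo x (omS g i s B (qw r) r))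
      (fun r => lo x (omS g i s B r (qw r))) p r := by
  classical
  have hz : zs g ≤ z g i := zs_le_z hJ hX i
  have hd := h.pd r hr
  have hc : Clean g (z g i) (qw r) r := hd.ta.2.2.1
  have hc' := Clean.swap hd.hr hc
  have e2 : rcof (z g i) (N g) (kc g r) r (qw r) = rcof (z g i) (N g) (kc g (qw r)) r (qw r) :=
    rcof_swap hV hz hd.hq hd.hr hc r (qw r)
  set a := rcof (z g i) (N g) (kc g (qw r)) (qw r) r with ha
  set b := rcof (z g i) (N g) (kc g (qw r)) r (qw r) with hb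
  have s1 : omS g i s B (qw r) r ⊆ (rgh (z g s) a).primeFactors := filter_subset _ _
  have s2 : omS g i s B r (qw r) ⊆ (rgh (z g s) b).primeFactors := by
    unfold omS
    rw [e2]
    exact filter_subset _ _
  have s3 : rsS g i s B (qw r) r ⊆ (rgh (z g s) a).primeFactors := sdiff_subset
  have s4 : rsS g i s B r (qw r) ⊆ (rgh (z g s) b).primeFactors := by
    unfold rsS
    rw [e2]
    exact sdiff_subset
  have hleN : ∀ p : ℕ, p.Prime → (a.factorization p ≠ 0 ∨ b.factorization p ≠ 0) → p ≤ N g := by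
    intro p hp h1
    refine prime_le_N hV hz hd.hq hd.hr hc hp ?_
    rcases h1 with h1 | h1
    · exact Or.inl (Nat.dvd_of_factorization_pos h1)
    · exact Or.inr (Nat.dvd_of_factorization_pos h1)
  have hprN : ∀ p : ℕ, p.Prime → p ≤ N g → p ∈ prN (N g) := fun p hp hpN =>
    mem_filter.2 ⟨mem_Icc.2 ⟨hp.one_le, hpN⟩, hp⟩
  have t1 : lo x (omS g i s B (qw r) r) ⊆ prN (N g) := fun p hp => by
    obtain ⟨a1, -, -, a4⟩ := not_lo s1 hp
    exact hprN p a1 (hleN p a1 (Or.inl a4))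
  have t3 : lo x (rsS g i s B (qw r) r) ⊆ prN (N g) := fun p hp => by
    obtain ⟨a1, -, -, a4⟩ := not_lo s3 hp
    exact hprN p a1 (hleN p a1 (Or.inl a4))
  have t4 : lo x (rsS g i s B r (qw r)) ⊆ prN (N g) := fun p hp => by
    obtain ⟨a1, -, -, a4⟩ := not_lo s4 hp
    exact hprN p a1 (hleN p a1 (Or.inr a4))
  rw [e2, Real.mul_rpow (Nat.cast_nonneg _) (Nat.cast_nonneg _), pt_rpow, pt_rpow, pt_rpow,
    prod_pl t1, prod_pl t1, prod_pl t3, prod_pl t4, ← prod_mul_distrib, ← prod_mul_distrib,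
    ← prod_mul_distrib]
  refine prod_congr rfl fun p hp => ?_
  have hpp : p.Prime := (mem_filter.1 hp).2
  unfold wX
  by_cases h1 : p ≤ z g s
  · have n1 : p ∉ lo x (omS g i s B (qw r) r) := fun hm => by
      have := (not_lo s1 hm).2.1; omega
    have n3 : p ∉ lo x (rsS g i s B (qw r) r) := fun hm => by
      have := (not_lo s3 hm).2.1; omega
    have n4 : p ∉ lo x (rsS g i s B r (qw r)) := fun hm => by
      have := (not_lo s4 hm).2.1; omega
    rw [if_neg n1, if_neg n1, if_neg n3, if_neg n4, if_pos h1]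
    norm_num
  rw [if_neg h1]
  by_cases h2 : p ≤ x
  swap
  · have n1 : p ∉ lo x (omS g i s B (qw r) r) := fun hm => h2 (not_lo s1 hm).2.2.1
    have n2 : p ∉ lo x (omS g i s B r (qw r)) := fun hm => h2 (not_lo s2 hm).2.2.1
    have n3 : p ∉ lo x (rsS g i s B (qw r) r) := fun hm => h2 (not_lo s3 hm).2.2.1
    have n4 : p ∉ lo x (rsS g i s B r (qw r)) := fun hm => h2 (not_lo s4 hm).2.2.1
    rw [if_neg n1, if_neg n1, if_neg n3, if_neg n4, if_neg n2]
    have h6 : r.factorization p = r₀.factorization p := by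
      have h7 := congrArg (fun m => m.factorization p) (h.lab r hr r₀ hr₀)
      simp only [rgh_fac] at h7
      rwa [if_pos (not_le.1 h2), if_pos (not_le.1 h2)] at h7
    unfold bR ad
    rw [if_neg h2, h6]
    simp
    exact fun hm => absurd hm n1
  obtain ⟨c1, c2, c3, c4⟩ := h.loc hJ hX hV hr hpp (not_le.1 h1) h2
  rw [← ha] at c1
  rw [← hb] at c2
  have m3 : p ∈ lo x (rsS g i s B (qw r) r) ↔
      (a.factorization p ≠ 0 ∧ p ∉ lo x (omS g i s B (qw r) r)) := by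
    constructor
    · intro hm
      refine ⟨(not_lo s3 hm).2.2.2, fun hm2 => ?_⟩
      exact (mem_sdiff.1 (mem_filter.1 hm).1).2 (mem_filter.1 hm2).1
    · rintro ⟨hm, hm2⟩
      refine mem_filter.2 ⟨mem_sdiff.2 ⟨?_, fun hm3 => hm2 (mem_filter.2 ⟨hm3, h2⟩)⟩, h2⟩
      rw [← Nat.support_factorization, Finsupp.mem_support_iff, rgh_fac, if_pos (not_le.1 h1)]
      exact hm
  have m4 : p ∈ lo x (rsS g i s B r (qw r)) ↔
      (b.factorization p ≠ 0 ∧ p ∉ lo x (omS g i s B r (qw r))) := by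
    constructor
    · intro hm
      refine ⟨(not_lo s4 hm).2.2.2, fun hm2 => ?_⟩
      exact (mem_sdiff.1 (mem_filter.1 hm).1).2 (mem_filter.1 hm2).1
    · rintro ⟨hm, hm2⟩
      refine mem_filter.2 ⟨mem_sdiff.2 ⟨?_, fun hm3 => hm2 (mem_filter.2 ⟨hm3, h2⟩)⟩, h2⟩
      rw [e2, ← Nat.support_factorization, Finsupp.mem_support_iff, rgh_fac, if_pos (not_le.1 h1)]
      exact hm
  have hbR : bR x q₀ r₀ p = q₀.factorization p := by
    unfold bR
    rw [if_pos h2]
  by_cases n1 : p ∈ lo x (omS g i s B (qw r) r)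
  · have k1 := (c3.1 n1).1
    have n3 : p ∉ lo x (rsS g i s B (qw r) r) := fun hm => (m3.1 hm).2 n1
    have n4 : p ∉ lo x (rsS g i s B r (qw r)) := fun hm => (m4.1 hm).1 (by omega)
    rw [if_pos n1, if_pos n1, if_neg n3, if_neg n4, if_pos n1, hbR, c1]
    ring
  by_cases n2 : p ∈ lo x (omS g i s B r (qw r))
  · have k1 := (c4.1 n2).1
    have n3 : p ∉ lo x (rsS g i s B (qw r) r) := fun hm => (m3.1 hm).1 (by omega)
    have n4 : p ∉ lo x (rsS g i s B r (qw r)) := fun hm => (m4.1 hm).2 n2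
    rw [if_neg n1, if_neg n1, if_neg n3, if_neg n4, if_neg n1, if_pos n2]
    norm_num
  rw [if_neg n1, if_neg n1, if_neg n1, if_neg n2, hbR, one_mul, one_mul]
  have k3 : (if p ∈ lo x (rsS g i s B (qw r) r) then
      ((p : ℝ) ^ (-(5 / 12) : ℝ)) ^ a.factorization p else 1) =
      ((p : ℝ) ^ (-(5 / 12) : ℝ)) ^ a.factorization p := by
    split_ifs with hm
    · rfl
    · have : a.factorization p = 0 := by
        by_contra h0
        exact hm (m3.2 ⟨h0, n1⟩)
      rw [this, pow_zero]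
  have k4 : (if p ∈ lo x (rsS g i s B r (qw r)) then
      ((p : ℝ) ^ (-(5 / 12) : ℝ)) ^ b.factorization p else 1) =
      ((p : ℝ) ^ (-(5 / 12) : ℝ)) ^ b.factorization p := by
    split_ifs with hm
    · rfl
    · have : b.factorization p = 0 := by
        by_contra h0
        exact hm (m4.2 ⟨h0, n2⟩)
      rw [this, pow_zero]
  rw [k3, k4, ← pow_add, c1, c2]
  rfl

/-- the labels above `z s` determine the label of the stage `s` -/
theorem Rg_ext {s r r' : ℕ} (h : ∀ p : ℕ, p.Prime → z g s < p → p ≤ N g →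
    r.factorization p = r'.factorization p) : Rg g s r = Rg g s r' := by
  refine Nat.eq_of_factorization_eq (Rg_pos s r).ne' (Rg_pos s r').ne' fun p => ?_
  rw [Rg_fac, Rg_fac]
  split_ifs with hp
  · obtain ⟨h1, h2, h3⟩ := mem_PO.1 hp
    exact h p h1 h2 h3
  · rfl

open Classical in
/-- **The row of a label below `x`.** -/
theorem RowH.row_le (hJ : JsOK g.K g.Js) (hX : g.Js ≤ g.X) (hV : g.V ⊆ Icc 1 (N g))
    (hN : NSpl g δ) (h : RowH g δ i s x B q₀ F G S qw nw) (hB : 0 < B) {c1 c lam : ℝ}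
    (h1 : 0 < c1) (hz2 : 2 ≤ c1 * zs g) (hc : 0 ≤ c) (hlam : 0 ≤ lam)
    (hs1 : 11 / 10 * (lam * c) < 1) (hz8 : 8 * (zs g : ℝ) ^ (-(5 / 12) : ℝ) ≤ 1 / 10)
    (aq : ℕ) (tr : ℕ → ℕ) (htr : ∀ r ∈ S, tr r ≤ i) {τ : ℝ} (hτ0 : 0 ≤ τ) (hτ : τ ≤ 1 / 2) :
    ∑ r ∈ S, ((∏ p ∈ lo x (omS g i s B (qw r) r), lam * dsg g c1 c s aq q₀ p) *
        ∏ p ∈ lo x (omS g i s B r (qw r)), lam * dsg g c1 c s (N g - z g (tr r)) r p) *
      ((pt (lo x (omS g i s B (qw r) r)) (rcof (z g i) (N g) (kc g (qw r)) (qw r) r) : ℕ) : ℝ) ^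
        (-(1 - τ)) *
      (((pt (lo x (rsS g i s B (qw r) r)) (rcof (z g i) (N g) (kc g (qw r)) (qw r) r) : ℕ) : ℝ) *
        (pt (lo x (rsS g i s B r (qw r))) (rcof (z g i) (N g) (kc g r) r (qw r)) : ℕ)) ^
          (-(5 / 12) : ℝ) ≤
      1 / (1 - 11 / 10 * (lam * c)) * Real.exp (4 + 32 * (Real.log B) ^ (7 / 12 : ℝ) +
        4 * ((x : ℝ) ^ τ * (lam * (c * c1 / 2)))) := by
  have hK0 : 0 ≤ 1 / (1 - 11 / 10 * (lam * c)) := by
    apply div_nonneg zero_le_one
    linarith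
  rcases S.eq_empty_or_nonempty with h0 | ⟨r₀, hr₀⟩
  · rw [h0, sum_empty]
    exact mul_nonneg hK0 (Real.exp_pos _).le
  have hz : zs g ≤ z g i := zs_le_z hJ hX i
  have hzs : zs g ≤ z g s := zs_le_z hJ hX s
  have hds : ∀ a q p, 0 ≤ dsg g c1 c s a q p := fun a q p => dsg_nonneg h1.le hc _ _ _ _
  have hq0 := mem_Icc.1 (hV h.q0)
  have hr00 := mem_Icc.1 (hV (h.pd r₀ hr₀).hr)
  have key := x1t (β := bR x q₀ r₀) (D0 := (NT.PzN (zs g) (N g)).filter
        (fun p => q₀.factorization p ≠ NT.kk g.V (f g) (thr g) (N g) q₀ p))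
    (Om := (Icc 1 (N g)).filter (fun p => p.Prime ∧ z g s < p ∧ p ≤ x)) (B := B) (t := z g s)
    (t0 := z g s) (U := fun r => lo x (omS g i s B (qw r) r))
    (Vm := fun r => lo x (omS g i s B r (qw r))) (h := fun p => lam * dsg g c1 c s aq q₀ p)
    (s := τ) hV (fun p hp => ?_) hzs hB (fun p => mul_nonneg hlam (hds _ _ _)) hτ ?_
    (fun r hr => h.xr hJ hX hV hN hr₀ hr)
    (ω := fun r => ∏ p ∈ lo x (omS g i s B r (qw r)), lam * dsg g c1 c s (N g - z g (tr r)) r p)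
    (fun r => prod_nonneg fun p _ => mul_nonneg hlam (hds _ _ _)) hK0 ?_
  · have e1 : ∀ r ∈ S, ((∏ p ∈ lo x (omS g i s B (qw r) r), lam * dsg g c1 c s aq q₀ p) *
          ∏ p ∈ lo x (omS g i s B r (qw r)), lam * dsg g c1 c s (N g - z g (tr r)) r p) *
        ((pt (lo x (omS g i s B (qw r) r)) (rcof (z g i) (N g) (kc g (qw r)) (qw r) r) : ℕ) : ℝ) ^
          (-(1 - τ)) *
        (((pt (lo x (rsS g i s B (qw r) r)) (rcof (z g i) (N g) (kc g (qw r)) (qw r) r) : ℕ) : ℝ) *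
          (pt (lo x (rsS g i s B r (qw r))) (rcof (z g i) (N g) (kc g r) r (qw r)) : ℕ)) ^
            (-(5 / 12) : ℝ) =
        (∏ p ∈ lo x (omS g i s B r (qw r)), lam * dsg g c1 c s (N g - z g (tr r)) r p) *
          ∏ p ∈ prN (N g), wX (bR x q₀ r₀) (fun p => lam * dsg g c1 c s aq q₀ p) τ (z g s)
            (fun r => lo x (omS g i s B (qw r) r)) (fun r => lo x (omS g i s B r (qw r))) p r := by
      intro r hr
      rw [← h.prod_eq hJ hX hV hr₀ hr]
      ring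
    rw [sum_congr rfl e1]
    refine key.trans (mul_le_mul_of_nonneg_left (Real.exp_le_exp.2 ?_) hK0)
    rw [Ioc_self, sum_empty, mul_zero, add_zero]
    have e2 : ∑ p ∈ (Icc 1 (N g)).filter (fun p => p.Prime ∧ z g s < p ∧ p ≤ x),
        lam * dsg g c1 c s aq q₀ p * (p : ℝ) ^ (-(1 - τ)) ≤ (x : ℝ) ^ τ * (lam * (c * c1 / 2)) := by
      have e3 := dsg_mass h1 hc (s := s) (a := aq) (q := q₀)
        (P := (Icc 1 (N g)).filter (fun p => p.Prime ∧ z g s < p ∧ p ≤ x))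
        (fun p hp => mem_Icc.1 (mem_filter.1 hp).1)
      refine le_trans ?_ (mul_le_mul_of_nonneg_left (mul_le_mul_of_nonneg_left e3 hlam)
        (Real.rpow_nonneg (Nat.cast_nonneg x) τ))
      rw [mul_sum, mul_sum]
      refine sum_le_sum fun p hp => ?_
      obtain ⟨hp1, -, -, hpx⟩ := mem_filter.1 hp
      have hp0 : (0 : ℝ) < p := by exact_mod_cast (mem_Icc.1 hp1).1
      have e4 : (p : ℝ) ^ (-(1 - τ)) = (p : ℝ) ^ τ * (p : ℝ)⁻¹ := by
        rw [← Real.rpow_neg_one, ← Real.rpow_add hp0]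
        congr 1
        ring
      have e5 : (p : ℝ) ^ τ ≤ (x : ℝ) ^ τ :=
        Real.rpow_le_rpow hp0.le (by exact_mod_cast hpx) hτ0
      rw [e4, div_eq_mul_inv]
      calc lam * dsg g c1 c s aq q₀ p * ((p : ℝ) ^ τ * (p : ℝ)⁻¹)
          = (p : ℝ) ^ τ * (lam * (dsg g c1 c s aq q₀ p * (p : ℝ)⁻¹)) := by ring
        _ ≤ _ := mul_le_mul_of_nonneg_right e5
            (mul_nonneg hlam (mul_nonneg (hds _ _ _) (inv_nonneg.2 hp0.le)))
    linarith
  · unfold bR
    split_ifs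
    · exact Nat.factorization_eq_zero_of_lt (by omega)
    · exact Nat.factorization_eq_zero_of_lt (by omega)
  · refine le_trans (sum_le_sum fun p hp => ?_) h.w0
    have h4 : (1 : ℝ) ≤ p := by
      exact_mod_cast (NT.mem_PzN.1 (mem_filter.1 hp).1).1.one_le
    exact Real.rpow_le_rpow_of_exponent_le h4 (by norm_num)
  -- the fibres
  intro T hT hTT
  rcases T.eq_empty_or_nonempty with h0 | ⟨r1, hr1⟩
  · rw [h0, sum_empty]
    exact hK0
  have hc' : 0 ≤ 11 / 10 * (lam * c) := by positivity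
  set y : ℕ := xc (PO (z g s) (N g)) (fun p => if p ∈ lo x (omS g i s B r1 (qw r1)) then
    bR x q₀ r₀ p else r1.factorization p) with hy
  have hyf : ∀ p : ℕ, p.Prime → z g s < p → p ≤ N g → y.factorization p =
      if p ∈ lo x (omS g i s B r1 (qw r1)) then bR x q₀ r₀ p else r1.factorization p := by
    intro p h1 h2 h3
    rw [hy, xcPO_fac, if_pos (mem_PO.2 ⟨h1, h2, h3⟩)]
  have hfac : ∀ r ∈ T, ∀ p : ℕ, p.Prime → z g s < p → p ≤ N g → y.factorization p =
      if p ∈ lo x (omS g i s B r (qw r)) then bR x q₀ r₀ p else r.factorization p := by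
    intro r hr p h1 h2 h3
    rw [hyf p h1 h2 h3]
    exact hTT r1 hr1 r hr p h1 h2
  have hVmem : ∀ r ∈ T, ∀ p ∈ lo x (omS g i s B r (qw r)), p.Prime ∧ z g s < p ∧ p ≤ x ∧
      p ≤ N g := fun r hr p hp => lo_omS hJ hX hV (h.pd r (hT hr)).hr (h.pd r (hT hr)).hq
    (Clean.swap (h.pd r (hT hr)).hr (h.pd r (hT hr)).ta.2.2.1) hp
  have hrem := dsg_removers (g := g) (c1 := c1) (c := 11 / 10 * (lam * c)) h1 hz2 hc' hs1 T y i s
    (fun r => r) (fun r => lo x (omS g i s B r (qw r))) tr 1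
    (fun r hr => (h.pd r (hT hr)).hr) (fun r hr => htr r (hT hr))
    (fun r hr p hp => by
      obtain ⟨a1, a2, a3, a4⟩ := hVmem r hr p hp
      obtain ⟨b1, b2, b3⟩ := (h.loc hJ hX hV (hT hr) a1 a2 a3).2.2.2.1 hp
      refine ⟨a2, a3.trans h.xi, a4, ?_, b3⟩
      rw [hfac r hr p a1 a2 a4, if_pos hp]
      unfold bR
      rwa [if_pos a3])
    (fun r hr p a1 a2 a3 a4 => by rw [hfac r hr p a1 a2 a3, if_neg a4])
    (fun D => by
      rw [card_le_one]
      intro r hr r' hr'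
      obtain ⟨hr2, hrD⟩ := mem_filter.1 hr
      obtain ⟨hr2', hrD'⟩ := mem_filter.1 hr'
      refine h.inj r (hT hr2) r' (hT hr2') (Rg_ext fun p a1 a2 a3 => ?_)
      have f1 := hfac r hr2 p a1 a2 a3
      have f2 := hfac r' hr2' p a1 a2 a3
      by_cases hpD : p ∈ D
      · have m1 : p ∈ lo x (omS g i s B r (qw r)) := by rw [hrD]; exact hpD
        have m2 : p ∈ lo x (omS g i s B r' (qw r')) := by rw [hrD']; exact hpD
        have a4 := (hVmem r hr2 p m1).2.2.1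
        rw [((h.loc hJ hX hV (hT hr2) a1 a2 a4).2.2.2.1 m1).2.2,
          ((h.loc hJ hX hV (hT hr2') a1 a2 a4).2.2.2.1 m2).2.2]
        have x1 := h.xr hJ hX hV hN hr₀ (hT hr2)
        have x2 := h.xr hJ hX hV hN hr₀ (hT hr2')
        have hcell := x1.cell (t0 := z g s) x2 a2.le (fun p' b1 b2 => by
          have b4 : z g s < p' := by omega
          have b5 : ¬ p' ≤ z g s := not_le.2 b4
          by_cases b3 : p' ≤ N g
          · simp only [eX, if_neg b5]
            exact (hfac r hr2 p' b1 b4 b3).symm.trans (hfac r' hr2' p' b1 b4 b3)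
          · have n1 : p' ∉ lo x (omS g i s B r (qw r)) := fun hm =>
              b3 (hVmem r hr2 p' hm).2.2.2
            have n2 : p' ∉ lo x (omS g i s B r' (qw r')) := fun hm =>
              b3 (hVmem r' hr2' p' hm).2.2.2
            have i1 := mem_Icc.1 (hV (h.pd r (hT hr2)).hr)
            have i2 := mem_Icc.1 (hV (h.pd r' (hT hr2')).hr)
            simp only [eX, if_neg b5, if_neg n1, if_neg n2]
            rw [Nat.factorization_eq_zero_of_lt (show r < p' by omega),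
              Nat.factorization_eq_zero_of_lt (show r' < p' by omega)])
        unfold kc NT.kN NT.kk
        rw [if_pos a3, if_pos a3, hcell]
        have u1 := (x1.hVm p m1).2
        have u2 := (x2.hVm p m2).2
        unfold Spl at u1 u2
        rw [hcell] at u2
        rw [if_neg u1, if_neg u1]
      · have m1 : p ∉ lo x (omS g i s B r (qw r)) := by rw [hrD]; exact hpD
        have m2 : p ∉ lo x (omS g i s B r' (qw r')) := by rw [hrD']; exact hpD
        rw [if_neg m1] at f1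
        rw [if_neg m2] at f2
        rw [← f1, ← f2])
  rw [Nat.cast_one, one_mul] at hrem
  refine le_trans (sum_le_sum fun r hr => ?_) hrem
  rw [← prod_mul_distrib]
  refine prod_le_prod (fun p _ => ?_) fun p hp => ?_
  · have : 0 ≤ (p : ℝ) ^ (-(5 / 12) : ℝ) := by positivity
    exact mul_nonneg (mul_nonneg hlam (hds _ _ _)) (by linarith)
  · obtain ⟨a1, a2, a3, a4⟩ := hVmem r hr p hp
    have e1 : dsg g c1 (11 / 10 * (lam * c)) s (N g - z g (tr r)) r p =
        11 / 10 * (lam * dsg g c1 c s (N g - z g (tr r)) r p) := by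
      unfold dsg
      rw [dl_mul_constX, dl_mul_constX]
    rw [e1, mul_comm]
    refine mul_le_mul_of_nonneg_right ?_ (mul_nonneg hlam (hds _ _ _))
    have hzs0 : (0 : ℝ) < zs g := by
      by_contra h0
      have : (zs g : ℝ) = 0 := le_antisymm (not_lt.1 h0) (Nat.cast_nonneg _)
      rw [this] at hz2
      linarith
    have e6 : (p : ℝ) ^ (-(5 / 12) : ℝ) ≤ (zs g : ℝ) ^ (-(5 / 12) : ℝ) := by
      refine Real.rpow_le_rpow_of_nonpos hzs0 ?_ (by norm_num)
      exact_mod_cast (hzs.trans_lt a2).le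
    linarith

end

end Vale.P028.SK.X3
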