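import Vale.Agent.P028.MathlibUsed
import Vale.Agent.P028.R103.X3b
import Vale.Agent.P028.H758.X2E
attribute [-instance] ProperSMul.toContinuousSMul IsTopologicalTorsor.toContinuousSMul IdemSemiring.toCanonicallyOrderedAdd IdemSemiring.toMulLeftMono IdemSemiring.toMulRightMono AddQuantale.instAddLeftMono AddQuantale.instAddRightMono Quantale.instMulLeftMono Quantale.instMulRightMono FiniteDimensional.rclike_to_real IsScalarTower.complexToReal FiniteDimensional.complexToReal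

/-!
# The parts of a pair below and above a number `x`
-/

namespace Vale.P028.SK.X3

open Finset CF RN H669

variable {g : Cfg}

/-- the primes of `T` which are greater than `x` -/
def hiP (x : ℕ) (T : Finset ℕ) : Finset ℕ := T.filter (fun p => ¬ p ≤ x)

theorem lo_mul_hi (x : ℕ) (T : Finset ℕ) (φ : ℕ → ℝ) :
    (∏ p ∈ lo x T, φ p) * ∏ p ∈ hiP x T, φ p = ∏ p ∈ T, φ p :=
  prod_filter_mul_prod_filter_not T (fun p => p ≤ x) φ

theorem pt_lo_hi (x : ℕ) (T : Finset ℕ) (m : ℕ) : pt (lo x T) m * pt (hiP x T) m = pt T m :=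
  prod_filter_mul_prod_filter_not T (fun p => p ≤ x) _

theorem mem_pf_rgh {t a p : ℕ} :
    p ∈ (rgh t a).primeFactors ↔ t < p ∧ a.factorization p ≠ 0 := by
  rw [← Nat.support_factorization, Finsupp.mem_support_iff, rgh_fac]
  constructor
  · intro h
    split_ifs at h with h1
    · exact ⟨h1, h⟩
    · exact absurd rfl h
  · rintro ⟨h1, h2⟩
    rwa [if_pos h1]

theorem pt_rgh (t a : ℕ) : pt (rgh t a).primeFactors a = rgh t a := by
  have h0 : rgh t a ≠ 0 := (rgh_pos _ _).ne'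
  conv_rhs => rw [← Nat.prod_factorization_pow_eq_self h0]
  unfold pt Finsupp.prod
  rw [Nat.support_factorization]
  refine prod_congr rfl fun p hp => ?_
  rw [rgh_fac, if_pos (mem_pf_rgh.1 hp).1]

theorem pt_of_rgh {t a : ℕ} {T : Finset ℕ} (h : T ⊆ (rgh t a).primeFactors) :
    pt T (rgh t a) = pt T a := by
  unfold pt
  refine prod_congr rfl fun p hp => ?_
  rw [rgh_fac, if_pos (mem_pf_rgh.1 (h hp)).1]

theorem Rg_rgh (hV : g.V ⊆ Icc 1 (N g)) {s q : ℕ} (hq : q ∈ g.V) : Rg g s q = rgh (z g s) q := by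
  refine Nat.eq_of_factorization_eq (Rg_pos _ _).ne' (rgh_pos _ _).ne' fun p => ?_
  rw [Rg_fac, rgh_fac]
  by_cases h : p ∈ PO (z g s) (N g)
  · rw [if_pos h, if_pos (mem_PO.1 h).2.1]
  · rw [if_neg h]
    split_ifs with h1
    · symm
      by_cases hp : p.Prime
      · have h2 : ¬ p ≤ N g := fun h3 => h (mem_PO.2 ⟨hp, h1, h3⟩)
        have h4 := mem_Icc.1 (hV hq)
        exact Nat.factorization_eq_zero_of_lt (by omega)
      · exact Nat.factorization_eq_zero_of_not_prime _ hp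
    · rfl

/-- the parts above `x` of the primes of a pair -/
theorem hi_omS {i s B q r x : ℕ} (hsx : z g s ≤ x)
    (hB : ∀ p : ℕ, p.Prime → x < p → ¬ p ∣ B) :
    hiP x (omS g i s B q r) = lkx g x i q r := by
  ext p
  unfold hiP omS lkx
  rw [mem_filter, mem_filter, mem_filter, mem_pf_rgh, mem_pf_rgh]
  constructor
  · rintro ⟨⟨⟨h1, h2⟩, h3, h4⟩, h5⟩
    exact ⟨⟨not_le.1 h5, h2⟩, h4⟩
  · rintro ⟨⟨h1, h2⟩, h4⟩
    have hp : p.Prime := by
      by_contra hp
      exact h2 (Nat.factorization_eq_zero_of_not_prime _ hp)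
    exact ⟨⟨⟨lt_of_le_of_lt hsx h1, h2⟩, hB p hp h1, h4⟩, not_le.2 h1⟩

theorem omS_le_zi (hV : g.V ⊆ Icc 1 (N g)) {i s B q r p : ℕ} (hz : zs g ≤ z g i) (hq : q ∈ g.V)
    (hr : r ∈ g.V) (hc : Clean g (z g i) q r) (h : p ∈ omS g i s B q r) : p ≤ z g i := by
  obtain ⟨h1, h2, h3, h4, h5, h6⟩ := mem_omS hV hz hq hr hc h
  obtain ⟨-, -, -, ha, -⟩ := clean_cofac hV hz hq hr hc
  by_contra hlt
  obtain ⟨f1, -⟩ := rcof_fac hV hz hq hr hc h1
  rw [if_neg hlt] at f1
  have := h1.factorization_pos_of_dvd ha.ne' h4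
  omega

/-- the same at `x = z i` -/
theorem hi_omS_zi (hV : g.V ⊆ Icc 1 (N g)) {i s B q r : ℕ} (hz : zs g ≤ z g i) (hq : q ∈ g.V)
    (hr : r ∈ g.V) (hc : Clean g (z g i) q r) :
    hiP (z g i) (omS g i s B q r) = lkx g (z g i) i q r := by
  ext p
  constructor
  · intro h
    obtain ⟨h1, h2⟩ := mem_filter.1 h
    exact absurd (omS_le_zi hV hz hq hr hc h1) h2
  · intro h
    exfalso
    obtain ⟨h1, h2⟩ := mem_filter.1 h
    obtain ⟨h3, h4⟩ := mem_pf_rgh.1 h1
    have hp : p.Prime := by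
      by_contra hp
      exact h4 (Nat.factorization_eq_zero_of_not_prime _ hp)
    obtain ⟨f1, -⟩ := rcof_fac hV hz hq hr hc hp
    rw [if_neg (not_le.2 h3)] at f1
    omega

theorem hi_rsS {i s B q r x : ℕ} (hsx : z g s ≤ x)
    (hO : hiP x (omS g i s B q r) = lkx g x i q r) :
    hiP x (rsS g i s B q r) = (rgh x (rcof (z g i) (N g) (kc g q) q r)).primeFactors \
      lkx g x i q r := by
  rw [← hO]
  ext p
  unfold hiP rsS
  rw [mem_filter, mem_sdiff, mem_sdiff, mem_filter, mem_pf_rgh, mem_pf_rgh]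
  constructor
  · rintro ⟨⟨⟨h1, h2⟩, h3⟩, h4⟩
    exact ⟨⟨not_le.1 h4, h2⟩, fun h5 => h3 h5.1⟩
  · rintro ⟨⟨h1, h2⟩, h3⟩
    exact ⟨⟨⟨lt_of_le_of_lt hsx h1, h2⟩, fun h5 => h3 ⟨h5, not_le.2 h1⟩⟩, not_le.2 h1⟩

theorem omS_sub (i s B q r : ℕ) : omS g i s B q r ⊆
    (rgh (z g s) (rcof (z g i) (N g) (kc g q) q r)).primeFactors := filter_subset _ _

theorem rsS_sub (i s B q r : ℕ) : rsS g i s B q r ⊆
    (rgh (z g s) (rcof (z g i) (N g) (kc g q) q r)).primeFactors := sdiff_subset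

/-- the three parts of the rough part of the reduced cofactor -/
theorem parts_mul {i s B q r x : ℕ} (hsx : z g s ≤ x) :
    pt (lo x (omS g i s B q r)) (rcof (z g i) (N g) (kc g q) q r) *
        pt (lo x (rsS g i s B q r)) (rcof (z g i) (N g) (kc g q) q r) *
      rgh x (rcof (z g i) (N g) (kc g q) q r) =
      rgh (z g s) (rcof (z g i) (N g) (kc g q) q r) := by
  classical
  set a := rcof (z g i) (N g) (kc g q) q r with ha
  have h1 : hiP x (rgh (z g s) a).primeFactors = (rgh x a).primeFactors := by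
    ext p
    unfold hiP
    rw [mem_filter, mem_pf_rgh, mem_pf_rgh]
    constructor
    · rintro ⟨⟨h1, h2⟩, h3⟩
      exact ⟨not_le.1 h3, h2⟩
    · rintro ⟨h1, h2⟩
      exact ⟨⟨lt_of_le_of_lt hsx h1, h2⟩, not_le.2 h1⟩
  have h2 : pt (lo x (omS g i s B q r)) a * pt (lo x (rsS g i s B q r)) a =
      pt (lo x (rgh (z g s) a).primeFactors) a := by
    have h3 : lo x (rsS g i s B q r) =
        lo x (rgh (z g s) a).primeFactors \ lo x (omS g i s B q r) := by
      ext p
      unfold lo rsS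
      rw [mem_filter, mem_sdiff, mem_sdiff, mem_filter, mem_filter]
      tauto
    have h4 : lo x (omS g i s B q r) ⊆ lo x (rgh (z g s) a).primeFactors :=
      filter_subset_filter _ (omS_sub _ _ _ _ _)
    rw [h3, mul_comm]
    unfold pt
    exact prod_sdiff h4
  rw [h2]
  conv_rhs => rw [← pt_rgh (z g s) a, ← pt_lo_hi x, h1, pt_rgh]

/-- the rest of the pair -/
theorem rsp_parts {i s B q r x : ℕ} (hsx : z g s ≤ x)
    (hO : hiP x (omS g i s B q r) = lkx g x i q r) :
    rsp g i s B q r = pt (lo x (rsS g i s B q r)) (rcof (z g i) (N g) (kc g q) q r) *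
      u2x g x i q r := by
  have e : rsp g i s B q r = pt (rsS g i s B q r) (rcof (z g i) (N g) (kc g q) q r) := by
    unfold rsp
    exact pt_of_rgh (rsS_sub _ _ _ _ _)
  rw [e, ← pt_lo_hi x, hi_rsS hsx hO]
  rfl

/-- the sizes of the inner parts at `z s` and at `x` -/
theorem size_mid (hV : g.V ⊆ Icc 1 (N g)) {i s q r x : ℕ} (hsx : z g s ≤ x) (hxi : x ≤ z g i)
    (hz : zs g ≤ z g i) (hq : q ∈ g.V) (hr : r ∈ g.V) (hc : Clean g (z g i) q r) {TA TB : ℕ}
    (hTA : 0 < TA) (hTB : 0 < TB)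
    (hA : TA * rgh x (rcof (z g i) (N g) (kc g q) q r) =
      rgh (z g s) (rcof (z g i) (N g) (kc g q) q r))
    (hB : TB * rgh x (rcof (z g i) (N g) (kc g q) r q) =
      rgh (z g s) (rcof (z g i) (N g) (kc g q) r q)) :
    |((szx x r - szx x q : ℤ) : ℝ) - (hgt (Nat.log 2 r) (Rg g s r) -
      hgt (Nat.log 2 q) (Rg g s q))| ≤ 1 + Real.logb 2 ((TA : ℝ) * TB) := by
  have h1 := clean_rgh hV hxi hz hq hr hc
  have h2 := clean_rgh hV (hsx.trans hxi) hz hq hr hc
  rw [← hA, ← hB] at h2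
  rw [Rg_rgh hV hq, Rg_rgh hV hr]
  set a := rgh x (rcof (z g i) (N g) (kc g q) q r) with ha
  set b := rgh x (rcof (z g i) (N g) (kc g q) r q) with hb
  have ca : (0 : ℝ) < a := by exact_mod_cast rgh_pos x _
  have cb : (0 : ℝ) < b := by exact_mod_cast rgh_pos x _
  have cq : (0 : ℝ) < rgh x q := by exact_mod_cast rgh_pos x q
  have cr : (0 : ℝ) < rgh x r := by exact_mod_cast rgh_pos x r
  have cq' : (0 : ℝ) < rgh (z g s) q := by exact_mod_cast rgh_pos _ q
  have cr' : (0 : ℝ) < rgh (z g s) r := by exact_mod_cast rgh_pos _ r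
  have cM : (0 : ℝ) < M g i q := by exact_mod_cast M_pos g i q
  have cM' : (0 : ℝ) < M g i r := by exact_mod_cast M_pos g i r
  have cA : (0 : ℝ) < TA := by exact_mod_cast hTA
  have cB : (0 : ℝ) < TB := by exact_mod_cast hTB
  have e1 : Real.logb 2 (rgh x q) + (Real.logb 2 (M g i q) + Real.logb 2 b) =
      Real.logb 2 (rgh x r) + (Real.logb 2 (M g i r) + Real.logb 2 a) := by
    rw [← Real.logb_mul cM.ne' cb.ne', ← Real.logb_mul cq.ne' (by positivity),
      ← Real.logb_mul cM'.ne' ca.ne', ← Real.logb_mul cr.ne' (by positivity)]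
    congr 1
    exact_mod_cast h1
  have e2 : Real.logb 2 (rgh (z g s) q) + (Real.logb 2 (M g i q) +
      (Real.logb 2 TB + Real.logb 2 b)) =
      Real.logb 2 (rgh (z g s) r) + (Real.logb 2 (M g i r) +
        (Real.logb 2 TA + Real.logb 2 a)) := by
    rw [← Real.logb_mul cB.ne' cb.ne', ← Real.logb_mul cM.ne' (by positivity),
      ← Real.logb_mul cq'.ne' (by positivity), ← Real.logb_mul cA.ne' ca.ne',
      ← Real.logb_mul cM'.ne' (by positivity), ← Real.logb_mul cr'.ne' (by positivity)]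
    congr 1
    exact_mod_cast h2
  have h3 := log2_bounds (rgh_pos x q)
  have h4 := log2_bounds (rgh_pos x r)
  have h5 : 0 ≤ Real.logb 2 (TA : ℝ) := Real.logb_nonneg (by norm_num) (by exact_mod_cast hTA)
  have h6 : 0 ≤ Real.logb 2 (TB : ℝ) := Real.logb_nonneg (by norm_num) (by exact_mod_cast hTB)
  rw [Real.logb_mul cA.ne' cB.ne']
  unfold szx hgt
  push_cast
  rw [abs_le]
  constructor <;> linarith [h3.1, h3.2, h4.1, h4.2]

/-- the decay in the sizes at `z s`, in terms of the sizes at `x` -/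
theorem tilt_mid {l y σ T : ℝ} (h0 : 0 ≤ σ) (h1 : σ ≤ 1) (hT : 1 ≤ T)
    (h : |l - y| ≤ 1 + Real.logb 2 T) :
    (1 + |y|) ^ (-(2 : ℝ)) ≤ (1 + σ * |l|) ^ (-(2 : ℝ)) *
      (Real.exp (2 * σ) * T ^ (2 * σ / Real.log 2)) := by
  refine (Db.size_tilt h0 h1 (l := l)).trans ?_
  have h2 : (0 : ℝ) ≤ (1 + σ * |l|) ^ (-(2 : ℝ)) := by
    have := mul_nonneg h0 (abs_nonneg l)
    positivity
  refine mul_le_mul_of_nonneg_left ?_ h2
  have hT0 : 0 < T := by linarith
  rw [Real.rpow_def_of_pos hT0, ← Real.exp_add]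
  refine Real.exp_le_exp.2 ?_
  have h3 : Real.logb 2 T = Real.log T / Real.log 2 := rfl
  have h4 : 0 < Real.log 2 := Real.log_pos (by norm_num)
  have h5 : Real.log T * (2 * σ / Real.log 2) = 2 * σ * (Real.log T / Real.log 2) := by
    field_simp
  rw [h5, ← h3]
  nlinarith

/-- the rough parts of the reduced cofactors above `x` depend on the labels above `x` -/
theorem rgh_rcof_x (hV : g.V ⊆ Icc 1 (N g)) {i x q r q' r' : ℕ} (hxi : x ≤ z g i)
    (hz : zs g ≤ z g i) (hq : q ∈ g.V) (hr : r ∈ g.V) (hq' : q' ∈ g.V) (hr' : r' ∈ g.V)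
    (hc : Clean g (z g i) q r) (hc' : Clean g (z g i) q' r')
    (h1 : rgh x q = rgh x q') (h2 : rgh x r = rgh x r') :
    rgh x (rcof (z g i) (N g) (kc g q) q r) = rgh x (rcof (z g i) (N g) (kc g q') q' r') ∧
    rgh x (rcof (z g i) (N g) (kc g q) r q) = rgh x (rcof (z g i) (N g) (kc g q') r' q') := by
  have f : ∀ {u v : ℕ}, rgh x u = rgh x v → ∀ p, x < p → u.factorization p = v.factorization p := by
    intro u v h p hp
    have h7 := congrArg (fun m => m.factorization p) h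
    simp only [rgh_fac] at h7
    rwa [if_pos hp, if_pos hp] at h7
  have hA : AgL g x q q' := fun p _ hp _ => f h1 p hp
  have key : ∀ p : ℕ, (rgh x (rcof (z g i) (N g) (kc g q) q r)).factorization p =
      (rgh x (rcof (z g i) (N g) (kc g q') q' r')).factorization p ∧
      (rgh x (rcof (z g i) (N g) (kc g q) r q)).factorization p =
      (rgh x (rcof (z g i) (N g) (kc g q') r' q')).factorization p := by
    intro p
    rw [rgh_fac, rgh_fac, rgh_fac, rgh_fac]
    split_ifs with hp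
    · by_cases hpp : p.Prime
      · obtain ⟨a1, a2⟩ := rcof_fac hV hz hq hr hc hpp
        obtain ⟨b1, b2⟩ := rcof_fac hV hz hq' hr' hc' hpp
        rw [a1, a2, b1, b2, f h1 p hp, f h2 p hp, hA.agS.kc hp]
        exact ⟨rfl, rfl⟩
      · rw [Nat.factorization_eq_zero_of_not_prime _ hpp,
          Nat.factorization_eq_zero_of_not_prime _ hpp,
          Nat.factorization_eq_zero_of_not_prime _ hpp,
          Nat.factorization_eq_zero_of_not_prime _ hpp]
        exact ⟨rfl, rfl⟩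
    · exact ⟨rfl, rfl⟩
  exact ⟨Nat.eq_of_factorization_eq (rgh_pos _ _).ne' (rgh_pos _ _).ne' fun p => (key p).1,
    Nat.eq_of_factorization_eq (rgh_pos _ _).ne' (rgh_pos _ _).ne' fun p => (key p).2⟩

theorem lkx_congr (hV : g.V ⊆ Icc 1 (N g)) {i x q r q' r' : ℕ} (hxi : x ≤ z g i)
    (hz : zs g ≤ z g i) (hq : q ∈ g.V) (hr : r ∈ g.V) (hq' : q' ∈ g.V) (hr' : r' ∈ g.V)
    (hc : Clean g (z g i) q r) (hc' : Clean g (z g i) q' r')
    (h1 : rgh x q = rgh x q') (h2 : rgh x r = rgh x r') :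
    lkx g x i q r = lkx g x i q' r' ∧ u2x g x i q r = u2x g x i q' r' := by
  have e := (rgh_rcof_x hV hxi hz hq hr hq' hr' hc hc' h1 h2).1
  have f : ∀ p, x < p → q.factorization p = q'.factorization p := by
    intro p hp
    have h7 := congrArg (fun m => m.factorization p) h1
    simp only [rgh_fac] at h7
    rwa [if_pos hp, if_pos hp] at h7
  have hA : AgL g x q q' := fun p _ hp _ => f p hp
  have e1 : lkx g x i q r = lkx g x i q' r' := by
    unfold lkx
    rw [e]
    refine filter_congr fun p hp => ?_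
    have h3 := (mem_pf_rgh.1 hp).1
    rw [f p h3, hA.agS.kc h3]
  refine ⟨e1, ?_⟩
  have k1 : u2x g x i q r = pt ((rgh x (rcof (z g i) (N g) (kc g q) q r)).primeFactors \
      lkx g x i q r) (rgh x (rcof (z g i) (N g) (kc g q) q r)) := by
    unfold u2x
    exact (pt_of_rgh sdiff_subset).symm
  have k2 : u2x g x i q' r' = pt ((rgh x (rcof (z g i) (N g) (kc g q') q' r')).primeFactors \
      lkx g x i q' r') (rgh x (rcof (z g i) (N g) (kc g q') q' r')) := by
    unfold u2x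
    exact (pt_of_rgh sdiff_subset).symm
  rw [k1, k2, e1, e]

end Vale.P028.SK.X3
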